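import Vale.Agent.P284.Stmt
import Vale.Agent.P278.Stmt
import Vale.Agent.P284.Pull
import Vale.Agent.P272.Main

open scoped Manifold ContDiff
open Vale.Agent.P284

theorem Vale.Agent.Results.P284.Hyperbolic.result (n m : ℕ)
    (X : Type) [TopologicalSpace X] [T2Space X] [CompactSpace X] [ConnectedSpace X]
    [ChartedSpace (Fin n → ℂ) X] [IsManifold 𝓘(ℂ, Fin n → ℂ) ω X]
    (h : Vale.Agent.P278S.FormField (Fin n → ℂ) X) (_ : Vale.Agent.P278S.IsKaehler h)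
    (hX : Special n X)
    (Y : Type) [TopologicalSpace Y] [T2Space Y] [CompactSpace Y] [ConnectedSpace Y]
    [ChartedSpace (Fin m → ℂ) Y] [IsManifold 𝓘(ℂ, Fin m → ℂ) ω Y]
    (k : Vale.Agent.P278S.FormField (Fin m → ℂ) Y) (hk : Vale.Agent.P278S.IsKaehler k)
    (hB : ∀ c : ℂ → Y, MDifferentiable 𝓘(ℂ, ℂ) 𝓘(ℂ, Fin m → ℂ) c → ∃ a, ∀ z, c z = a)
    (f : C(X, Y)) (hf : MDifferentiable 𝓘(ℂ, Fin n → ℂ) 𝓘(ℂ, Fin m → ℂ) f)
    (hs : Function.Surjective f) (x : X) :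
    m = 0 ∧ Subsingleton Y ∧
      (VirtAb (FundamentalGroup.map f x).ker → VirtAb (FundamentalGroup X x)) := by
  obtain rfl : m = 0 := by_contra fun hm =>
    not_special (Nat.one_le_iff_ne_zero.2 hm) hf hs
      (Vale.Agent.P272.main m (Nat.one_le_iff_ne_zero.2 hm) Y k hk hB) hX
  have h1 : DiscreteTopology Y := discreteTopology_iff_isOpen_singleton.2 fun y => by
    have : (chartAt (Fin 0 → ℂ) y).source = {y} := Set.eq_singleton_iff_unique_mem.2
      ⟨mem_chart_source _ y, fun z hz => (chartAt (Fin 0 → ℂ) y).injOn hz (mem_chart_source _ y)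
        (Subsingleton.elim _ _)⟩
    exact this ▸ (chartAt (Fin 0 → ℂ) y).open_source
  have h2 : Subsingleton Y := PreconnectedSpace.trivial_of_discrete
  refine ⟨rfl, h2, ?_⟩
  rintro ⟨H, h3, h4⟩
  have h5 : Function.Surjective (FundamentalGroup.map f x).ker.subtype := fun a =>
    ⟨⟨a, Subsingleton.elim _ _⟩, rfl⟩
  refine ⟨H.map (FundamentalGroup.map f x).ker.subtype,
    ⟨ne_zero_of_dvd_ne_zero h3.index_ne_zero (H.index_map_dvd h5)⟩, ?_⟩
  rintro _ ⟨a, ha, rfl⟩ _ ⟨b, hb, rfl⟩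
  rw [← map_mul, ← map_mul, h4 a ha b hb]
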